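import Vale.Agent.P102.Main

/-!
Mixing of order `k` is decided by the self-correlations of single sets.
-/

namespace Vale.Agent.Results.P102.SingleSetCriterion

open MeasureTheory Vale.Agent.P102

theorem result {Ω : Type*} [MeasurableSpace Ω] (μ : Measure Ω) [IsProbabilityMeasure μ]
    (T : Ω → Ω) (hT : MeasurePreserving T μ μ) (k : ℕ) (hk : 2 ≤ k) :
    (MixOrder μ T k ↔ OneSetMix μ T k) ∧ (MixOrder μ T k ↔ SubOneSetMix μ T k) ∧
      (MixOrder μ T k ↔ WeakMixing μ T ∧ BoundedSelfCorr μ T k) :=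
  mixOrder_iff hT hk

end Vale.Agent.Results.P102.SingleSetCriterion
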